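import Vale.Agent.P216U.Tr
import Vale.Agent.P216DC.Cpt
import Vale.Agent.P216SG.Nkf
import Vale.Agent.P216HV.Regn

/-! # P216LP: the limit flow of a blow up sequence -/

open scoped Manifold ContDiff Topology ENNReal
open Set MeasureTheory Filter

set_option maxSynthPendingDepth 3
set_option linter.unusedSectionVars false

noncomputable section

namespace Vale.Agent.P216LP

open P216R P216DC P216FA P216BF P216U

section one

variable {M : Type} [TopologicalSpace M] [ChartedSpace E3 M] [IsManifold 𝓘(ℝ, E3) ∞ M]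
  [MeasurableSpace M] {F : Dat M} {P : Cs} {c : ℕ → ℝ} {r r' τ τ' s A : ℝ} {W : Set M} {y : M}

theorem reg_mono (h : F.Reg r τ W s y) (hr : r ≤ r') (hτ : τ ≤ τ') : F.Reg r' τ' W s y :=
  ⟨h.prec, by linarith [h.le], h.mem, by linarith [h.dle]⟩

theorem reg_base (hF : F.Bas c) (hr : 0 ≤ r) (hτ : 0 ≤ τ) : F.Reg r τ F.U F.t F.x :=
  ⟨Or.inl ⟨rfl, rfl⟩, by linarith, hF.mem, by linarith⟩

theorem sl_sl (hF : F.Bas c) (h0 : F.T₀ ≤ s) (hs : s ≤ F.t) :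
    Sl F.b F.d F.T₀ F.T₁ (F.sl s) s := by
  unfold Dat.sl
  split_ifs with h
  · exact sl_post ⟨h0, h.trans_le hF.sl.mem_Icc.2⟩
  · rw [le_antisymm hs (not_lt.1 h)]
    exact hF.sl

theorem pin_age {g : Ten E3 M} {a a' : ℝ} (hg : Met g W) (h : Pin g W a') (ha : 0 < a)
    (h' : a ≤ a') : Pin g W a := fun y hy η hη =>
  secGe_mono hg hy (h y hy η hη) (neg_le_neg (max_le_max le_rfl (by gcongr)))

end one

section lim

variable {ι : Type} {l : Ultrafilter ι} {X : Type} [TopologicalSpace X] [ChartedSpace E3 X]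
  [IsManifold 𝓘(ℝ, E3) ∞ X] {h : Ten E3 X} {W : Set X} {M : ι → Type}
  [∀ n, TopologicalSpace (M n)] [∀ n, ChartedSpace E3 (M n)] [∀ n, IsManifold 𝓘(ℝ, E3) ∞ (M n)]
  {U : ∀ n, Set (M n)} {g : ∀ n, Ten E3 (M n)} {F : ∀ n, X → M n} {p : X}

/-- pinching for all positive ages gives nonnegative curvature in the limit -/
theorem pin_lim' (hc : Conv l U g F h W) (hg : ∀ᶠ n in l, Met (g n) (U n))
    (hP : ∀ A > 0, ∀ᶠ n in l, Pin (g n) (U n) A) (hp : p ∈ W) : SecGe h p 0 :=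
  secGe_of_forall fun ε ε0 => by
    have η0 : 0 < ε / (|Sc h p| + 1) := by positivity
    set η := ε / (|Sc h p| + 1) with hη
    have h1 := conv_secGe hc hg hp (((conv_sc_pt hc hg hp).const_mul η).max (tendsto_const_nhds
      (x := Real.exp (3 + 1 / η) / (Real.exp (3 + 1 / η) / ε)))).neg
      (((hP _ (by positivity)).and (hc.ap_mem hp (ap_const p))).mono fun n k => k.1 _ k.2 η η0)
    refine secGe_mono hc.met hp h1 (neg_le_neg (max_le ?_ (le_of_eq (by field_simp))))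
    rw [hη, div_mul_eq_mul_div, div_le_iff₀ (by positivity)]
    nlinarith [le_abs_self (Sc h p)]

/-- compact sets of the limit are bounded -/
theorem lim_bdd {l : Filter ι} {x : ∀ n, M n} {ρ : ℝ≥0∞} (L : Lim l U g x ρ) {K : Set L.X}
    (hK : IsCompact K) : ∃ A > 0, K ⊆ bl L.h univ L.o A := by
  rcases K.eq_empty_or_nonempty with rfl | hne
  · exact ⟨1, one_pos, empty_subset _⟩
  obtain ⟨p, -, hp⟩ := hK.exists_isMaxOn hne
    ((L.conv.met.continuousOn_ed L.o).mono (subset_univ K))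
  obtain ⟨r, r0, -, hr⟩ := lim_mem L p
  exact ⟨r, r0, fun q hq => (show ed L.h univ L.o q ≤ ed L.h univ L.o p from hp hq).trans_lt hr⟩

end lim

variable {ι : Type} {l : Ultrafilter ι} {X : ι → Mf} {F : ∀ n, Dat (X n).M} {P : Cs} {I : Set ℝ}
  {t τ K r e : ℝ}

theorem bu_sl (hB : BU P l F) (n : ι) : Sl (F n).b (F n).d (F n).T₀ (F n).T₁ (F n).U 0 :=
  (hB.all n).2.1 ▸ (hB.all n).1.sl

theorem bu_met (hB : BU P l F) (n : ι) : Met ((F n).g 0) (F n).U :=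
  (hB.all n).1.sf.met (bu_sl hB n)

theorem bu_hs (hB : BU P l F) (n : ι) : Hs (F n).U := (hB.all n).1.sf.sl_hs (bu_sl hB n)

theorem bu_evP (hB : BU P l F) (h : EB l F τ K) (hr : 0 < r) :
    EvP l (fun n => (F n).U) (fun n => (F n).g) (fun n => (F n).x) r τ :=
  ⟨K, (h r hr).mono fun n hn => ⟨((bu_met hB n).cpl ((hB.all n).1.sf.sl_cpt (bu_sl hB n))).cpt
    (hB.all n).1.mem r, hn⟩⟩

/-- the earlier slices -/
theorem bu_sls (hB : BU P l F) (ht : t ≤ 0) :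
    ∀ᶠ n in l, Sl (F n).b (F n).d (F n).T₀ (F n).T₁ ((F n).sl t) t :=
  (hB.ctl (1 - t) (by linarith)).mono fun n hn => sl_sl hn.bas
    (by linarith [hn.env.init, (hB.all n).2.1]) (by rw [(hB.all n).2.1]; exact ht)

theorem bu_mets (hB : BU P l F) (ht : t ≤ 0) :
    ∀ᶠ n in l, Met ((F n).g t) ((F n).sl t) ∧ Hs ((F n).sl t) :=
  (bu_sls hB ht).mono fun n hn => ⟨(hB.all n).1.sf.met hn, (hB.all n).1.sf.sl_hs hn⟩

theorem bk_eb (hI : Bk I) (hE : ∀ τ > 0, -τ ∈ I → ∃ K, EB l F τ K) (ht : t ∈ I) :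
    ∃ τ > -t, ∃ K, EB l F τ K := by
  obtain ⟨s, h1, h2⟩ := hI.ext t ht
  have h3 := hI.le t ht
  exact ⟨-s, by linarith, hE _ (by linarith) (h2 ⟨by simp, by linarith⟩)⟩

theorem par_sc {M : Type} [TopologicalSpace M] [ChartedSpace E3 M] [IsManifold 𝓘(ℝ, E3) ∞ M]
    {g : ℝ → Ten E3 M} {U : Set M} {x y : M} {s : ℝ} (h : ParB g U x 0 r τ K) (h1 : -τ ≤ s)
    (h2 : s ≤ 0) (hy : y ∈ bl (g 0) U x r) : Sc (g s) y ≤ 6 * K :=
  have hs : s ∈ Icc (0 - τ) 0 := ⟨by linarith, h2⟩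
  (abs_le.1 (abs_sc_le3 finrank_E3 (RF.met h.1 hs) hy (h.2 s hs y hy))).2

theorem bu_seq (hB : BU P l F) (hP : P.Ok e) (hI : Bk I)
    (hE : ∀ τ > 0, -τ ∈ I → ∃ K, EB l F τ K) :
    Seq l (fun n => (F n).U) (fun n => (F n).g) (fun n => (F n).x) ⊤ := by
  obtain ⟨τ, τ0, K, hK⟩ := bk_eb hI hE hI.zero
  rw [neg_zero] at τ0
  have k1 : 1 ≤ 6 * |K| + 1 := by linarith [abs_nonneg K]
  refine ⟨bu_met hB, bu_hs hB, fun n => (hB.all n).1.mem, fun r hr _ => ⟨τ, τ0, bu_evP hB hK hr⟩,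
    P.κ, hP.κ0, 1 / (6 * |K| + 1), by positivity, ENNReal.ofReal_lt_top, ?_⟩
  filter_upwards [hK 1 one_pos, hB.ctl 1 one_pos] with n h1 h2
  have h3 := h2.env.nc _ _ _ (reg_base h2.bas zero_le_one zero_le_one) (1 / (6 * |K| + 1))
    ⟨by positivity, (div_le_one (by positivity)).2 k1⟩
  rw [(hB.all n).2.1] at h3
  refine h3 fun y hy => (par_sc h1 (by linarith) le_rfl
    (bl_mono ((div_le_one (by positivity)).2 k1) hy)).trans ?_
  rw [div_pow, one_pow, one_div_one_div]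
  nlinarith [le_abs_self K, abs_nonneg K]

theorem bu_reg (hR : REGN) (hB : BU P l F) (hP : P.Ok e) (hI : Bk I)
    (hE : ∀ τ > 0, -τ ∈ I → ∃ K, EB l F τ K) (L : LimF l F) (ht : t ∈ I) {S : Set L.X}
    (hS : IsCompact S) : ∃ r, ∀ᶠ n in l, ∀ s ∈ Icc t 0, ∀ p ∈ S,
      (F n).Reg r (-t) ((F n).sl s) s (L.F n p) := by
  obtain ⟨A, -, hA⟩ := lim_bdd L hS
  obtain ⟨τ, τ0, K, hK⟩ := bk_eb hI hE ht
  obtain ⟨r, A', A0, lev, lev0, H⟩ := hR P e hP A (-t) K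
  refine ⟨r, ?_⟩
  filter_upwards [hK A' A0, hB.ctl lev lev0, lim_maps L hS hA] with n h1 h2 h3 s hs p hp
  have h4 := H (X n) (F n) h2 (by linarith [hI.le t ht])
  rw [(hB.all n).2.1] at h4
  exact h4 (parB_sub h1 (bu_met hB n) Subset.rfl τ0.le le_rfl) _ (h3 p hp) s
    ⟨by linarith [hs.1], hs.2⟩

/-- curvature bounds of the limit flow hold for the sequence -/
theorem fl_eb (hB : BU P l F) (hI : Bk I) {L : LimF l F} {G : ℝ → Ten E3 L.X}
    (hG : FL (g := fun n => (F n).g) L G I univ) (hn : ∀ t ∈ I, ∀ p, SecGe (G t) p 0)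
    (hτ : -τ ∈ I) {K' : ℝ} (hE : EB l F τ K')
    (hK : ∀ s ∈ Icc (-τ) 0, ∀ p, Sc (G s) p ≤ K) : EB l F τ (K + 1) := fun A A0 => by
  by_contra hc
  have h1 : ∀ᶠ n in l, ∃ q : ℝ × (X n).M, q.1 ∈ Icc (-τ) 0 ∧
      q.2 ∈ bl ((F n).g 0) (F n).U (F n).x A ∧ ¬ RmB ((F n).g q.1) 0 q.2 (K + 1) := by
    filter_upwards [Ultrafilter.eventually_not.2 hc, hE A A0] with n h1 h2
    by_contra h3
    exact h1 ⟨h2.1, fun s hs y hy => not_not.1 fun h4 => h3 ⟨(s, y), by simpa using hs, hy, h4⟩⟩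
  have : ∀ n, Nonempty (ℝ × (X n).M) := fun n => ⟨(0, (F n).x)⟩
  choose! q hq using fun n (h : ∃ q : ℝ × (X n).M, q.1 ∈ Icc (-τ) 0 ∧
      q.2 ∈ bl ((F n).g 0) (F n).U (F n).x A ∧ ¬ RmB ((F n).g q.1) 0 q.2 (K + 1)) => h
  have h2 := h1.mono hq
  obtain ⟨s, hs, h3⟩ := isCompact_Icc.ultrafilter_le_nhds (l.map fun n => (q n).1)
    (le_principal_iff.2 (h2.mono fun _ k => k.1))
  obtain ⟨p, hp, h4⟩ := L.exists_ap (z := fun n => (q n).2) (Eventually.of_forall (bu_hs hB))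
    (ENNReal.ofReal_lt_top (r := A)) (h2.mono fun _ k => le_of_lt k.2.1)
  have sI := hI.icc hτ hs
  have hc' := hG.conv' (U' := fun n => bl ((F n).g 0) (F n).U (F n).x (A + 1)) hI sI
    (s := fun n => (q n).1) (tendsto_nhdsWithin_iff.2 ⟨h3, h2.mono fun _ k => hI.icc hτ k.1⟩)
    (L.conv.met.isOpen_bl L.o (A + 1)) (subset_univ _) fun _ hK hs => lim_maps L hK hs
  have h5 := hc'.rmB_ap (((hE (A + 1) (by linarith)).and h2).mono fun n k =>
    RF.met k.1.1 (by simpa using k.2.1)) (cbl_subset_bl (by linarith) (lt_add_one A) hp) h4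
    (rmB_mono (rmB3_nonneg finrank_E3 (hG.rf.met sI) (mem_univ p) (hn s sI p)) (hK s hs p))
    tendsto_const_nhds (lt_add_one K)
  obtain ⟨n, k1, k2⟩ := (h5.and h2).exists
  exact k2.2.2 k1

theorem lpx (hR : REGN) : LPX := fun c => by
  obtain ⟨e, e0, hN⟩ := P216SG.nkf 0
  refine ⟨e, e0, fun P _ hP ι l X F I hB hI hE => ?_⟩
  obtain ⟨L, G, hG, -⟩ := exists_fl cpt0 cpt1 (bu_seq hB hP hI hE) hI fun r hr _ τ τ0 hτ =>
    let ⟨_, hK⟩ := hE τ τ0 hτ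
    bu_evP hB hK hr
  have reg := fun t (ht : t ∈ I) S (hS : IsCompact S) => bu_reg hR hB hP hI hE L ht hS
  have cv : ∀ t ∈ I, Conv l (fun n => (F n).sl t) (fun n => (F n).g t) L.F (G t) univ :=
    fun t ht => hG.conv hI ht isOpen_univ Subset.rfl fun S hS _ =>
      let ⟨_, h⟩ := reg t ht S hS
      h.mono fun n hn p hp => (hn t ⟨le_rfl, hI.le t ht⟩ p hp).mem
  have ms := fun t (ht : t ∈ I) => bu_mets hB (hI.le t ht)
  have sec : ∀ t ∈ I, ∀ p, SecGe (G t) p 0 := fun t ht p => by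
    refine pin_lim' (cv t ht) ((ms t ht).mono fun _ k => k.1) (fun A A0 => ?_) (mem_univ p)
    filter_upwards [hB.ctl (max A (-t)) (lt_max_of_lt_left A0), bu_sls hB (hI.le t ht), ms t ht]
      with n h1 h2 h3
    exact pin_age h3.1 (h1.env.pin _ t h2 (by
      rw [(hB.all n).2.1]
      exact ⟨by linarith [le_max_right A (-t)], hI.le t ht⟩)) A0 (le_max_left _ _)
  have cpl : ∀ t ∈ I, Cpl (G t) univ := fun t ht => hG.cpl hI sec ht
  have rg : ∀ t ∈ I, ∀ p, ∀ r > 0, ∃ A ≥ r, ∀ᶠ n in l, (F n).Ctl P A ∧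
      (F n).Reg A A ((F n).sl t) t (L.F n p) := fun t ht p r r0 => by
    obtain ⟨r₀, h⟩ := reg t ht {p} isCompact_singleton
    refine ⟨max r (max r₀ (-t)), le_max_left _ _, (hB.ctl _ (lt_max_of_lt_left r0)).and
      (h.mono fun n hn => reg_mono (hn t ⟨le_rfl, hI.le t ht⟩ p rfl) ?_ ?_)⟩
    exacts [le_max_of_le_right (le_max_left _ _), le_max_of_le_right (le_max_right _ _)]
  refine ⟨L, G, hG, fun t ht => ⟨hG.rf.met ht, hs_of_t2 _, isPreconnected_univ, cpl t ht,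
    fun p _ => sec t ht p⟩, ?_, fun t ht => ?_, cv, reg, fun t ht p r r0 => ?_, fun t ht => ?_,
    fun τ τ0 hτ K hK => let ⟨_, h⟩ := hE τ τ0 hτ; fl_eb hB hI hG sec hτ h hK⟩
  · refine tendsto_nhds_unique (conv_sc_pt (hG.conv_all hI hI.zero)
      (Eventually.of_forall (bu_met hB)) (mem_univ L.o)) (tendsto_const_nhds.congr' ?_)
    filter_upwards [L.base] with n hn
    rw [hn, (hB.all n).2.2]
  · obtain ⟨τ, τ0, K, hK⟩ := bk_eb hI hE ht
    refine ⟨6 * K, fun s hs p => ?_⟩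
    obtain ⟨r, r0, -, hp⟩ := lim_mem L p
    have h1 : -τ ≤ s := by linarith [hs.1]
    exact hG.sc_le hI (hI.icc ht hs) (subset_univ _) hp (bu_evP hB hK r0) h1
      ((hK r r0).mono fun n hn y hy => par_sc hn h1 hs.2 hy)
  · obtain ⟨A, hA, h⟩ := rg t ht p r r0
    exact conv_nc (cv t ht) (ms t ht) (mem_univ p) r0 ((cpl t ht).cpt (mem_univ p) r)
      fun r' hr' => h.mono fun n hn => hn.1.env.nc _ _ _ hn.2 r' ⟨hr'.1, hr'.2.le.trans hA⟩
  · refine ltl ι l X ⟨L.X⟩ _ _ L.F (G t) P.L P.A (cv t ht) (hs_of_t2 _) isPreconnected_univ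
      (cpl t ht) (ms t ht) hP.L0 fun y => ?_
    obtain ⟨A, -, h⟩ := rg t ht y 1 one_pos
    filter_upwards [h, ms t ht] with n h1 h2 h3 h4
    exact (hN (X n) _ _ _ _ _ h2.1 h2.2 hP.εe ((h1.1.cn _ _ _ h1.2 h3).nt.neck h4)).1

/-- the unconditional form -/
theorem lpx' : LPX := lpx P216HV.regn

end Vale.Agent.P216LP
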